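import Vale.Agent.P269CF.Nodes
import Vale.Agent.P269CD.Defs
import Vale.Agent.P269CT.Sec
import Vale.Agent.P269CV.K2

/-!
P269, block C, row NULX: almost all points of a chart of the total space are generic points of
smooth fibres.
-/

noncomputable section

namespace Vale.Agent.P269CF

open Set Filter MeasureTheory Vale.Agent.P273.H183 Vale.Agent.P273.H948 Vale.Agent.P272.K Vale.Agent.P269C
open Vale.Agent.P269CD Vale.Agent.P269CT
open scoped Topology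

variable {L : Type} {D : ℕ} {C : Fam L D}

/-- The tube lemma. -/
theorem tube (hC : C.IsStable) {b : Cm D} (hb : b ∈ C.B) {P : C.X → Prop}
    (h : ∀ p ∈ C.fib b, ∀ᶠ q in 𝓝 p, P q) : ∀ᶠ a in 𝓝 b, ∀ q ∈ C.fib a, P q := by
  obtain ⟨K, hK, hKB, hKc⟩ := local_compact_nhds (hC.1.mem_nhds hb)
  have h1 : IsCompact (C.π '' (C.π ⁻¹' K ∩ (interior {q | P q})ᶜ)) :=
    ((hC.2.2.2.1 K hKB hKc).inter_right isOpen_interior.isClosed_compl).image (P273SD.cont_π hC)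
  have h2 : b ∉ C.π '' (C.π ⁻¹' K ∩ (interior {q | P q})ᶜ) := by
    rintro ⟨p, ⟨-, hp⟩, e⟩
    exact hp (mem_interior_iff_mem_nhds.2 (h p e))
  filter_upwards [hK, h1.isClosed.isOpen_compl.mem_nhds h2] with a h3 h4 q hq
  by_contra h5
  have h6 : C.π q = a := hq
  exact h4 ⟨q, ⟨show C.π q ∈ K from h6.symm ▸ h3, fun h7 => h5 (interior_subset h7)⟩, h6⟩

/-- The zero set of a holomorphic germ which is not zero is null in a chart. -/
theorem ch_null {e : OpenPartialHomeomorph C.X (Cm (D + 1))} (he : IsCh C e) {y : Cm (D + 1)}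
    (hy : y ∈ e.target) {f : C.X → ℂ} (hf : C.hol f (e.symm y))
    (h0 : ¬ ∀ᶠ q in 𝓝 (e.symm y), f q = 0) :
    ∃ O ∈ 𝓝 y, volume {a ∈ O | f (e.symm a) = 0} = 0 := by
  have h1 := (he _ (e.map_target hy) f).1 hf
  rw [e.right_inv hy] at h1
  refine loc_null h1 fun h2 => h0 ?_
  have h3 := e.continuousAt (e.map_target hy)
  rw [ContinuousAt, e.right_inv hy] at h3
  filter_upwards [h3.eventually h2, e.open_source.mem_nhds (e.map_target hy)] with q h4 h5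
  rw [← e.left_inv h5]
  exact h4

/-- A set which is locally contained in finitely many zero sets is null in a chart. -/
theorem ch_ae {e : OpenPartialHomeomorph C.X (Cm (D + 1))} (he : IsCh C e) {P : C.X → Prop}
    (h : ∀ p, P p → ∃ (F : Set (C.X → ℂ)), F.Finite ∧
      (∀ f ∈ F, C.hol f p ∧ ¬ ∀ᶠ q in 𝓝 p, f q = 0) ∧ ∀ᶠ q in 𝓝 p, P q → ∃ f ∈ F, f q = 0) :
    ∀ᵐ y, y ∈ e.target → ¬ P (e.symm y) := by
  refine measure_null_of_locally_null _ fun y hy => ?_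
  obtain ⟨hy, h1⟩ := Classical.not_imp.1 hy
  obtain ⟨F, hF, h2, h3⟩ := h _ (not_not.1 h1)
  choose! O hO h4 using fun f hf => ch_null he hy (h2 f hf).1 (h2 f hf).2
  refine ⟨({a | P (e.symm a) → ∃ f ∈ F, f (e.symm a) = 0} ∩ ⋂ f ∈ F, O f) ∩
      {a | ¬ (a ∈ e.target → ¬ P (e.symm a))},
    inter_mem (mem_nhdsWithin_of_mem_nhds (inter_mem ((e.continuousAt_symm hy).eventually h3)
      ((biInter_mem hF).2 hO))) self_mem_nhdsWithin, ?_⟩
  refine measure_mono_null ?_ ((measure_biUnion_null_iff hF.countable).2 h4)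
  rintro a ⟨⟨h5, h6⟩, h7⟩
  obtain ⟨f, hf, h8⟩ := h5 (not_not.1 (Classical.not_imp.1 h7).2)
  exact mem_iUnion₂.2 ⟨f, hf, mem_iInter₂.1 h6 f hf, h8⟩

theorem not_ev {c : ℂ} : ¬ ∀ᶠ z in 𝓝 c, z = c := fun h =>
  (h.filter_mono (nhdsWithin_le_nhds (s := {c}ᶜ))).frequently.and_eventually self_mem_nhdsWithin
    |>.exists.elim fun _ h => h.2 h.1

theorem ae_sp (hC : C.IsStable) {e : OpenPartialHomeomorph C.X (Cm (D + 1))} (he : IsCh C e) :
    ∀ᵐ y, y ∈ e.target → ¬ ¬ Sp C (e.symm y) := by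
  refine ch_ae he (P := fun p => ¬ Sp C p) fun p hp => ?_
  have : Nonempty C.X := ⟨p⟩
  obtain ⟨U, u, v, t, hU, hm⟩ := P273SD.exists_mod hC p
  obtain ⟨h1, h2⟩ := P273SD.node_of_not_sm (fun h => hp ((sp_iff hC).2 h)) hm hU
  refine ⟨{u}, finite_singleton u, fun f hf => ?_, ?_⟩
  · rw [mem_singleton_iff.1 hf]
    refine ⟨hm.hol_u hU, fun h3 => not_ev (c := u p) ?_⟩
    filter_upwards [((P269CV.br_tendsto hm hU fun _ => h2).mono_right nhdsWithin_le_nhds).eventually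
      h3, P273SD.ev_br hm hU fun _ => h2] with z h4 h5
    rw [h1, ← h4, h5.2.2.1]
  · filter_upwards [hm.isOpen.mem_nhds hU] with q hq h3
    exact ⟨u, rfl, (P273SD.node_of_not_sm (fun h => h3 ((sp_iff hC).2 h)) hm hq).1⟩

theorem hol_π (hC : C.IsStable) {p : C.X} {t : Cm D → ℂ} (ht : AnalyticAt ℂ t (C.π p)) :
    C.hol (fun q => t (C.π q)) p := by
  obtain ⟨U, u, v, t', hU, hm⟩ := P273SD.exists_mod hC p
  exact P269CV.hol_an₁ hC (fun w => t w.1) (hm.hol_u hU)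
    (AnalyticAt.comp (g := t) ht analyticAt_fst)

theorem ae_mark (hC : C.IsStable) {e : OpenPartialHomeomorph C.X (Cm (D + 1))} (he : IsCh C e)
    (i : L) : ∀ᵐ y, y ∈ e.target → ¬ C.s i (C.π (e.symm y)) = e.symm y := by
  refine ch_ae he (P := fun p => C.s i (C.π p) = p) fun p hp => ?_
  have hb := hC.2.2.1 p
  obtain ⟨z, h1, h2⟩ := ex_co hC (hp ▸ sp_s hC hb i : Sp C p)
  refine ⟨{fun q => z q - z (C.s i (C.π q))}, finite_singleton _, fun f hf => ?_,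
    Eventually.of_forall fun q hq => ⟨_, rfl, by simp only [hq, sub_self]⟩⟩
  rw [mem_singleton_iff.1 hf]
  refine ⟨P269CV.hol_an₁ hC (fun w => w.2 - z (C.s i w.1)) h1 (analyticAt_snd.sub
    (AnalyticAt.comp (g := fun b => z (C.s i b)) ((holAt_s hC hb i).2 z (hp.symm ▸ h1))
      analyticAt_fst)), fun h3 => not_ev (c := z p) ?_⟩
  rw [← P269CV.map_co hC h2, eventually_map]
  filter_upwards [mem_nhdsWithin_of_mem_nhds h3, P269CV.ev_fib] with q h4 h5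
  have h6 : z q - z (C.s i (C.π q)) = 0 := h4
  rwa [h5, hp, sub_eq_zero] at h6

theorem node_t (hC : Kur C) (p : C.X) : ∃ t : Cm D → ℂ, AnalyticAt ℂ t (C.π p) ∧
    ¬ t =ᶠ[𝓝 (C.π p)] 0 ∧ ∀ᶠ q in 𝓝 p, ¬ Sp C q → t (C.π q) = 0 := by
  by_cases hp : P273SD.Sm C p
  · refine ⟨fun _ => 1, analyticAt_const, fun h => one_ne_zero h.self_of_nhds, ?_⟩
    filter_upwards [(P273SD.isOpen_sm C).mem_nhds hp] with q hq h
    exact (h ((sp_iff hC.1).2 hq)).elim
  obtain ⟨U, u, v, t, hU, hm⟩ := P273SD.exists_mod hC.1 p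
  obtain ⟨h1, h2⟩ := P273SD.node_of_not_sm hp hm hU
  refine ⟨t, hm.an p hU, fun e => hC.2.1 U u v t hm.isChart p hU h1 h2 ?_, ?_⟩
  · rw [e.fderiv_eq]
    exact fderiv_const_apply 0
  · filter_upwards [hm.isOpen.mem_nhds hU] with q hq h
    obtain ⟨h5, -⟩ := P273SD.node_of_not_sm (fun h' => h ((sp_iff hC.1).2 h')) hm hq
    rw [← hm.eqn q hq, h5, zero_mul]

theorem ae_sm (hC : Kur C) {e : OpenPartialHomeomorph C.X (Cm (D + 1))} (he : IsCh C e) :
    ∀ᵐ y, y ∈ e.target → ¬ (Sp C (e.symm y) ∧ ¬ Sm C (C.π (e.symm y))) := by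
  refine ch_ae he (P := fun p => Sp C p ∧ ¬ Sm C (C.π p)) fun p hp => ?_
  have hb := hC.1.2.2.1 p
  choose t h1 h2 h3 using node_t hC
  obtain ⟨F, hF, h4⟩ := (P273SD.isCompact_fib hC.1 hb).elim_nhds_subcover
    (fun r => interior {q | ¬ Sp C q → t r (C.π q) = 0}) fun r _ => interior_mem_nhds.2 (h3 r)
  have h5 := tube hC.1 hb (P := fun q => ∃ r ∈ F, ¬ Sp C q → t r (C.π q) = 0) fun q hq => by
    obtain ⟨r, hr, h6⟩ := mem_iUnion₂.1 (h4 hq)
    filter_upwards [mem_interior_iff_mem_nhds.1 h6] with a ha using ⟨r, hr, ha⟩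
  refine ⟨(fun r q => t r (C.π q)) '' F, F.finite_toSet.image _, ?_, ?_⟩
  · rintro f ⟨r, hr, rfl⟩
    have h6 : C.π r = C.π p := hF r hr
    refine ⟨hol_π hC.1 (h6 ▸ h1 r), fun h7 => h2 r ?_⟩
    obtain ⟨z, h8, h9⟩ := ex_co hC.1 hp.1
    obtain ⟨σ, hσ⟩ := P269CV.co_par2 hC.1 h8 h9
    have h10 : Tendsto (fun b => (b, z p)) (𝓝 (C.π p)) (𝓝 (C.π p, z p)) :=
      (continuous_id.prodMk continuous_const).continuousAt
    rw [h6]
    filter_upwards [h10.eventually (hσ.tend.eventually h7), h10.eventually hσ.right] with b a1 a2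
    rw [a2.1] at a1
    exact a1
  · filter_upwards [(P273SD.cont_π hC.1).continuousAt.eventually h5] with q h6 h7
    obtain ⟨a, ha⟩ := Classical.not_forall.1 h7.2
    obtain ⟨a1, a2⟩ := Classical.not_imp.1 ha
    obtain ⟨r, hr, a3⟩ := h6 a a1
    have a4 : C.π a = C.π q := a1
    have a5 := a3 a2
    rw [a4] at a5
    exact ⟨_, ⟨r, hr, rfl⟩, a5⟩

theorem nulx : NULX := by
  intro L _ D C hC e he
  filter_upwards [ae_sp hC.1 he, ae_all_iff.2 (ae_mark hC.1 he), ae_sm hC he] with y h1 h2 h3 hy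
  have h4 := not_not.1 (h1 hy)
  exact ⟨(gen_iff hC.1).2 ⟨h4, fun i => h2 i hy⟩, not_not.1 fun h5 => h3 hy ⟨h4, h5⟩⟩

end Vale.Agent.P269CF
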