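import Vale.Agent.P269CF.Spec
import Vale.Agent.P269CS.Gen
import Vale.Agent.P269CI.Bas
import Vale.Agent.P269CT.Sec
import Vale.Agent.P269CK.Iso
import Vale.Agent.P269CV.K2

/-!
P269, block C, row FUB: the degree on a smooth fibre of genus one.
-/

noncomputable section

namespace Vale.Agent.P269CF

open Set Filter MeasureTheory Vale.Agent.P273.H183 Vale.Agent.P272.K Vale.Agent.P269C
open Vale.Agent.P269CD
open Vale.Agent.P269CT (Gen H pt π_mk)
open scoped Topology ContDiff Classical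

variable {L : Type} {D : ℕ} {C : Fam L D}

theorem pr_sn (b : Cm D) (t : ℂ) : pr (sn b t) = b := Fin.init_snoc _ _

theorem sn_last (b : Cm D) (t : ℂ) : sn b t (Fin.last D) = t := Fin.snoc_last (α := fun _ => ℂ) _ _

theorem sn_an (b : Cm D) (t : ℂ) : AnalyticAt ℂ (sn b) t := by
  refine analyticAt_pi_iff.2 fun k => ?_
  refine Fin.lastCases ?_ (fun k => ?_) k
  · simp only [sn, Fin.snoc_last]
    exact analyticAt_id
  · simp only [sn, Fin.snoc_castSucc]
    exact analyticAt_const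

/-- Change of the coordinate. -/
theorem H_fr {h : Hm (Option L)} (hh : IsPsi h) (hC : C.IsStable) {p : C.X} {z w : C.X → ℂ}
    {c : ℂ} (hz : Co C z p) (hw : Co C w p) (hd : Dr C z w p c) :
    H h C p none z = ‖c‖ ^ 2 * H h C p none w :=
  hh.1 D D (pt C p) (pt C p) (C.π p) (C.π p) _ (P269CK.k1.refl (pt C p) (C.π p)) none z w w c
    (fun j => π_mk hC p j) hz hw (fun _ => rfl) hd

theorem Prd.p {c : Ch C} (hc : Prd c) {y : Cm (D + 1)} (hy : y ∈ c.e.target) : c.p y = pr y := by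
  have := (hc _ (c.e.map_target hy)).1
  rw [c.e.right_inv hy] at this
  exact this.symm

/-- The degree of the cotangent line on a smooth fibre of genus one. -/
theorem deg (fl : FL) [Fintype L] {h : Hm (Option L)} (hh : IsPsi h) (hC : C.IsStable)
    {χ : Cm D → ℝ} (hχ : tsupport χ ⊆ C.B) (S : Sys C χ) (hS : ∀ j, Prd (S.c j))
    {v : Fin S.k → Cm (D + 1) → ℝ} (hv : ∀ j, ∀ y ∈ (S.c j).e.target, ContDiffAt ℝ ∞ (v j) y ∧
      (Gen C ((S.c j).e.symm y) → H h C ((S.c j).e.symm y) none (S.c j).z =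
        (if (S.c j).ad.isSome then ‖y (Fin.last D)‖ ^ 2 else 1) * Real.exp (v j y)))
    {b : Cm D} (hb : χ b = 1) {η : Fin 1 → Df C} (hη : Bas C b η) :
    ∑ j, ∫ t : ℂ, S.w j (sn b t) * (cHess (v j) (sn b t) (Fin.last D) (Fin.last D) / Real.pi) =
      -(Fintype.card L : ℂ) := by
  have := hC.2.1
  have hB : b ∈ C.B := hχ (subset_tsupport _ (by rw [Function.mem_support, hb]; exact one_ne_zero))
  rw [fl C.X D C.π S.k (fun j => (S.c j).e) S.w v (fun j => (S.c j).ad.isSome)
    (fun j t => η 0 (S.c j).z ((S.c j).e.symm (sn b t))) b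
    (fun q => ‖η 0 (cz C q) q‖ ^ 2 * H h C q none (cz C q)) (range fun i => C.s i b)
    (fun j q hq => (hS j q hq).1) (fun j l y hy hy' => analyticAt_pi_iff.2 fun k =>
      P269CI.an_of_hol (S.c j).hol hy (P269CI.hol_coord (S.c l).hol hy' k))
    S.sm (fun p hp => by rw [S.one, hp, hb]) (finite_range _) ?_]
  · have h1 : ∀ j, (if (S.c j).ad.isSome then (S.w j (sl b) : ℂ) else 0) =
        ∑ i, ((if (S.c j).ad = some i then S.w j (sl b) else 0 : ℝ) : ℂ) := by
      intro j
      cases (S.c j).ad with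
      | none => simp
      | some i => simp [apply_ite, Finset.sum_ite_eq]
    simp only [h1]
    rw [Finset.sum_comm]
    simp only [← Complex.ofReal_sum, P269CI.sum_sl hC hχ S, hb]
    simp
  intro j t ht
  have hπ : ∀ s, sn b s ∈ (S.c j).e.target → C.π ((S.c j).e.symm (sn b s)) = b := fun s hs =>
    ((hS j).p hs).trans (pr_sn b s)
  set q := (S.c j).e.symm (sn b t) with hq
  have hqb : C.π q = b := hπ t ht
  obtain ⟨-, h1, h2, h3⟩ := hS j q ((S.c j).e.map_target ht)
  refine ⟨(hv j _ ht).1, ?_, P269CS.g1 hC hB (hqb ▸ h3) hη hqb h2, fun hZ => ?_⟩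
  · obtain ⟨g, h4, h5⟩ := P269CV.om_fh hC (η := η 0) (hqb.symm ▸ hη.1 0) h2
    refine (AnalyticAt.comp (g := fun x => g ((S.c j).e.symm x))
      (P269CI.an_of_hol (S.c j).hol ht h4) (sn_an b t)).congr ?_
    have h6 : Tendsto (fun s => (S.c j).e.symm (sn b s)) (𝓝 t) (nf C q) := by
      refine tendsto_nhdsWithin_iff.2 ⟨ContinuousAt.comp (f := sn b)
        ((S.c j).e.continuousAt_symm ht) (sn_an b t).continuousAt, ?_⟩
      filter_upwards [(sn_an b t).continuousAt.eventually ((S.c j).e.open_target.mem_nhds ht)]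
        with s hs
      exact (hπ s hs).trans hqb.symm
    exact h6.eventually h5.symm
  · have hg : Gen C q := ⟨⟨_, h2⟩, fun i e => hZ ⟨i, by rw [← e, hqb]⟩⟩
    have h4 : C.hol (cz C q) q ∧ Co C (cz C q) q :=
      Classical.epsilon_spec (p := fun z => C.hol z q ∧ Co C z q) ⟨_, h1, h2⟩
    obtain ⟨c, hc⟩ := P269CV.dr_exists hC h4.2 h2.1
    have h5 := (hv j _ ht).2 hg
    rw [sn_last, H_fr hh hC h2 h4.2 hc] at h5
    show ‖η 0 (cz C q) q‖ ^ 2 * H h C q none (cz C q) = _
    rw [(hη.1 0 q hqb).1 _ _ c h4.2 h2 hc, ← h5, norm_mul]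
    ring

end Vale.Agent.P269CF
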