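import Vale.Agent.P269CF.Loc
import Vale.Agent.P269CF.AeGen

/-!
P269, block C, row FUB.
-/

noncomputable section

namespace Vale.Agent.P269CF

open Set Filter MeasureTheory Vale.Agent.P273.H183 Vale.Agent.P272.K Vale.Agent.P269C
open Vale.Agent.P269CD
open scoped Topology ContDiff Classical

variable {L : Type} {g D : ℕ}

/-- One more chart, with weight zero. -/
def cons {C : Fam L D} {ρ : Cm D → ℝ} (c : Ch C) (S : Sys C ρ) : Sys C ρ where
  k := S.k + 1
  c := Fin.cons (α := fun _ => Ch C) c S.c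
  w := Fin.cons (α := fun _ => Cm (D + 1) → ℝ) 0 S.w
  sm := Fin.cases ⟨contDiff_const, HasCompactSupport.zero, by
    show tsupport (0 : Cm (D + 1) → ℝ) ⊆ _
    rw [tsupport_zero]
    exact empty_subset _⟩ S.sm
  one p := by
    rw [Fin.sum_univ_succ, ← S.one p]
    simp only [Fin.cons_zero, Fin.cons_succ, Pi.zero_apply, ite_self, zero_add]

/-- The form whose integral is computed. -/
def frm (h : Hm (Option L)) (C : Fam L D) (β : Cm D → Po D) (c : Ch C) (y : Cm (D + 1)) :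
    Po (D + 1) := ex (gf h C c.e.symm none) y * pb (jac c.p y) (β (c.p y))

theorem nat_sys [Finite L] (yg : YG) (bas : BAS) {A : Atlas g D L} (U : UC A) {h : Hm (Option L)}
    (hh : IsPsi h) {β : FB A} (hβ : β ∈ GB A) (a : Fin A.k) (S : Sys (A.C a) (A.ρ a))
    (j j' : Fin S.k) : ∀ y ∈ (S.c j).e.target, Gd y (frm h (A.C a) (β a) (S.c j)) ∧
      ((S.c j).e.symm y ∈ (S.c j').e.source → frm h (A.C a) (β a) (S.c j) y =
        pb (jac ((S.c j).tr (S.c j') id) y)
          (frm h (A.C a) (β a) (S.c j') ((S.c j).tr (S.c j') id y))) := by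
  obtain ⟨U', rfl⟩ : ∃ U' : UC A, U' a = S := ⟨Function.update U a S, Function.update_self _ _ _⟩
  have h1 := U'.G.mul_mem (yg L g D A U' h hh none) (bas.p U' β hβ).1
  intro y hy
  refine ⟨h1.1 ⟨a, j⟩ y hy, fun h2 => h1.2 ⟨a, j⟩ ⟨a, j'⟩ (fun x => x) id y hy ?_ h2⟩
  filter_upwards [(A.kur a).1.1.mem_nhds (((U' a).c j).p_mem (A.kur a).1 y)] with x hx
  exact ⟨hx, analyticAt_id, P269CK.k1.refl _ x, fun _ _ => ⟨continuousAt_id, fun _ hf => hf⟩⟩

theorem ex_two {C : Fam L D} {ρ : Cm D → ℝ} (c c' : Ch C) (S : Sys C ρ) :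
    ∃ (S' : Sys C ρ) (j j' : Fin S'.k), S'.c j = c ∧ S'.c j' = c' :=
  ⟨cons c (cons c' S), (0 : Fin (S.k + 1 + 1)), Fin.succ (0 : Fin (S.k + 1)),
    rfl, rfl⟩

theorem nat_frm [Finite L] (yg : YG) (bas : BAS) {A : Atlas g D L} (U : UC A) {h : Hm (Option L)}
    (hh : IsPsi h) {β : FB A} (hβ : β ∈ GB A) (a : Fin A.k) :
    Nat (A.C a) (frm h (A.C a) (β a)) := by
  refine ⟨fun c y hy => ?_, fun c c' y hy => ?_⟩
  · obtain ⟨S, j, j', rfl, -⟩ := ex_two c c (U a)
    exact (nat_sys yg bas U hh hβ a S j j y hy).1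
  · obtain ⟨S, j, j', rfl, rfl⟩ := ex_two c c' (U a)
    exact (nat_sys yg bas U hh hβ a S j j' y hy).2

theorem Fm_neg (M : Matrix (Fin D) (Fin D) ℂ) : Fm (-M) = -Fm M := by
  simp only [Fm, Matrix.neg_apply, map_neg, neg_mul, Finset.sum_neg_distrib]

theorem tau_frm {C : Fam L D} {c : Ch C} (hc : Prd c) {h : Hm (Option L)} (β : Cm D → Po D)
    {v : Cm (D + 1) → ℝ} {y : Cm (D + 1)} (hy : y ∈ c.e.target)
    (hv : ex (gf h C c.e.symm none) y = -dd v y) : tau (frm h C β c y) =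
      -(cHess v y (Fin.last D) (Fin.last D) / Real.pi) * tau (β (pr y)) := by
  have h1 : c.p =ᶠ[𝓝 y] pr := by
    filter_upwards [c.e.open_target.mem_nhds hy] with x hx using hc.p hx
  rw [frm, hv, chn.jc _ _ y h1, hc.p hy, dd, ← Fm_neg, P269CG.tau_row.fib, Matrix.neg_apply, neg_div]

/-- Integration along the fibres near a smooth fibre. -/
theorem loc [Fintype L] (gdc : GDC) (psys : PSYS) (yb : YB) (fl : FL) {C : Fam L D} (hC : Kur C)
    (hη : ∀ b ∈ C.B, ∃ η : Fin 1 → Df C, Bas C b η) {h : Hm (Option L)} (hh : IsPsi h)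
    {β : Cm D → Po D} (hn : Nat C (frm h C β)) {ρ : Cm D → ℝ} (S : Sys C ρ) {b₀ : Cm D}
    (hb : b₀ ∈ C.B) (hs : Sm C b₀) : ∃ V ∈ 𝓝 b₀, ∀ T ⊆ V, MeasurableSet T →
      ∑ j, ∫ y in (S.c j).e.target ∩ (S.c j).p ⁻¹' T, (S.w j y : ℂ) * tau (frm h C β (S.c j) y) =
        Fintype.card L * ∫ b in T, (ρ b : ℂ) * tau (β b) := by
  obtain ⟨χ, S', h1, h2, h3, h4⟩ := psys L D C hC.1 b₀ hb hs
  refine ⟨_, h1, fun T hT hm => ?_⟩
  choose v hv using fun k => yb L D h C (S'.c k) hh hC (h4 k)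
  obtain ⟨h5, h6⟩ := hn.chg gdc hC.1 S S' h3 hm fun b hb => hT hb
  set F : Fin S'.k → Cm (D + 1) → ℂ := fun k y =>
    -(T.indicator (fun b => (ρ b : ℂ) * tau (β b)) (pr y)) *
      (S'.w k y * (cHess (v k) y (Fin.last D) (Fin.last D) / Real.pi)) with hF
  have e1 : ∀ k, EqOn (fun y => T.indicator (fun b => (ρ b : ℂ)) ((S'.c k).p y) * S'.w k y *
      tau (frm h C β (S'.c k) y)) (F k) (S'.c k).e.target := by
    intro k y hy
    simp only [hF]
    rw [tau_frm (h4 k) β hy (hv k y hy).2.1, (h4 k).p hy, indicator_mul_left]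
    ring
  have e2 : ∀ k y, y ∉ (S'.c k).e.target → F k y = 0 := fun k y hy => by
    have h0 : S'.w k y = 0 := image_eq_zero_of_notMem_tsupport fun h7 => hy ((S'.sm k).2.2 h7)
    simp only [hF, h0, Complex.ofReal_zero, zero_mul, mul_zero]
  have e3 : ∀ k, Integrable (F k) := fun k =>
    ((h6 k).congr_fun (e1 k) (S'.c k).e.open_target.measurableSet).integrable_of_forall_notMem_eq_zero
      (e2 k)
  rw [h5, Finset.sum_congr rfl fun k _ =>
    ((setIntegral_congr_fun (S'.c k).e.open_target.measurableSet (e1 k)).trans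
      (setIntegral_eq_integral_of_forall_compl_eq_zero (e2 k))).trans (fub_sn (e3 k)).1,
    ← integral_finsetSum _ fun k _ => (fub_sn (e3 k)).2, ← integral_indicator hm,
    ← integral_const_mul]
  refine integral_congr_ae (Eventually.of_forall fun b => ?_)
  simp only [hF, pr_sn, integral_const_mul, ← Finset.mul_sum]
  by_cases h7 : b ∈ T
  · have h8 : χ b = 1 := hT h7
    obtain ⟨η, h9⟩ := hη b
      (h2 (subset_tsupport _ (by rw [Function.mem_support, h8]; exact one_ne_zero)))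
    rw [deg fl hh hC.1 h2 S' h4 (fun k y hy => ⟨(hv k y hy).1, (hv k y hy).2.2⟩) h8 h9]
    ring
  · simp only [indicator_of_notMem h7, neg_zero, zero_mul, mul_zero]

/-- **Row FUB.** -/
theorem fub (gdc : GDC) (yg : YG) (bas : BAS) (psys : PSYS) (yb : YB) (fl : FL) : FUB := by
  intro L _ D A U h hh β hβ
  unfold UC.I Atlas.int
  rw [Fintype.sum_sigma, Finset.mul_sum]
  refine Finset.sum_congr rfl fun a _ => ?_
  have hC := A.kur a
  have hn := nat_frm yg bas U hh hβ a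
  have hi : Integrable fun b => (A.ρ a b : ℂ) * tau (β a b) :=
    P269CL.integrable_w hC.1.1 (A.sm a).1.continuous (A.sm a).2.1 (A.sm a).2.2
      (P269CL.cont_tau_gd gdc (hβ.1 a))
  have h1 := glob (m := fun T => ∑ j, (∫ y in ((U a).c j).e.target ∩ ((U a).c j).p ⁻¹' T,
      ((U a).w j y : ℂ) * tau (frm h (A.C a) (β a) ((U a).c j) y)) -
        Fintype.card L * ∫ b in T, (A.ρ a b : ℂ) * tau (β a b)) (fun s hs hd => ?_) (by simp)
    (P269CV.isOpen_smooth hC.1) fun b hb => ?_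
  · rw [sub_eq_zero] at h1
    refine Eq.trans (Finset.sum_congr rfl fun j _ => ?_) (h1.trans (congrArg _ ?_))
    · refine (setIntegral_eq_integral_of_ae_compl_eq_zero ?_).symm
      filter_upwards [nulx L D _ hC _ ((U a).c j).hol] with y h2 h3
      have h0 : (U a).w j y = 0 := image_eq_zero_of_notMem_tsupport fun h4 =>
        h3 ⟨((U a).sm j).2.2 h4, hC.1.2.2.1 _, (h2 (((U a).sm j).2.2 h4)).2⟩
      exact mul_eq_zero_of_left (Complex.ofReal_eq_zero.2 h0) _
    · refine setIntegral_eq_integral_of_ae_compl_eq_zero ?_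
      filter_upwards [nul L D _ hC] with b h2 h3
      have h0 : A.ρ a b = 0 := image_eq_zero_of_notMem_tsupport fun h4 =>
        h3 ⟨(A.sm a).2.2 h4, h2 ((A.sm a).2.2 h4)⟩
      rw [h0, Complex.ofReal_zero, zero_mul]
  · refine HasSum.sub (hasSum_sum fun j _ => ?_)
      ((hasSum_integral_iUnion hs hd hi.integrableOn).mul_left _)
    rw [preimage_iUnion, inter_iUnion]
    exact hasSum_integral_iUnion (fun i => meas_p hC.1 _ (hs i))
      (fun i i' e => ((hd e).preimage _).mono inter_subset_right inter_subset_right)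
      (hn.int gdc (U a) j).integrableOn
  · obtain ⟨V, hV, h2⟩ := loc gdc psys yb fl hC
      (fun b hb => (A.fr a b hb).imp fun _ h3 => h3.self_of_nhds.1) hh hn (U a) hb.1 hb.2
    exact ⟨V, hV, fun T hT hm => sub_eq_zero.2 (h2 T hT hm)⟩

end Vale.Agent.P269CF
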