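import Vale.Agent.P269CD.Defs

/-!
P269, block C: the pieces of the row FUB.
-/

noncomputable section

namespace Vale.Agent.P269CF

open Set Filter MeasureTheory Vale.Agent.P273.H183 Vale.Agent.P272.K Vale.Agent.P269C
open Vale.Agent.P269CD
open Vale.Agent.P269CT (Gen H)
open scoped Topology ContDiff Classical

variable {L : Type} {D : ℕ}

/-- The point `(b, t)`. -/
def sn (b : Cm D) (t : ℂ) : Cm (D + 1) := Fin.snoc (α := fun _ => ℂ) b t

/-- A product chart over smooth fibres. -/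
def Prd {C : Fam L D} (c : Ch C) : Prop := ∀ q ∈ c.e.source,
  pr (c.e q) = C.π q ∧ C.hol c.z q ∧ Co C c.z q ∧ Sm C (C.π q)

/-- Row PSYS: systems of product charts near a smooth fibre. -/
def PSYS : Prop := ∀ (L : Type) [Finite L] (D : ℕ) (C : Fam L D), C.IsStable → ∀ b₀ ∈ C.B,
  Sm C b₀ → ∃ (χ : Cm D → ℝ) (S : Sys C χ), (∀ᶠ b in 𝓝 b₀, χ b = 1) ∧ tsupport χ ⊆ C.B ∧
    (∀ j y, |S.w j y| ≤ 1) ∧ ∀ j, Prd (S.c j)

/-- Row YB: the potential of the form `Y` in a product chart. -/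
def YB : Prop := ∀ (L : Type) [Finite L] (D : ℕ) (h : Hm (Option L)) (C : Fam L D) (c : Ch C),
  IsPsi h → Kur C → Prd c → ∃ v : Cm (D + 1) → ℝ, ∀ y ∈ c.e.target, ContDiffAt ℝ ∞ v y ∧
    ex (gf h C c.e.symm none) y = -dd v y ∧ (Gen C (c.e.symm y) → H h C (c.e.symm y) none c.z =
      (if c.ad.isSome then ‖y (Fin.last D)‖ ^ 2 else 1) * Real.exp (v y))

/-- Row FL: the degree of a metrized line bundle with a section on a compact fibre. -/
def FL : Prop := ∀ (X : Type) [TopologicalSpace X] [T2Space X] (D : ℕ) (π : X → Cm D) (k : ℕ)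
  (e : Fin k → OpenPartialHomeomorph X (Cm (D + 1))) (w v : Fin k → Cm (D + 1) → ℝ)
  (δ : Fin k → Bool) (f : Fin k → ℂ → ℂ) (b : Cm D) (R : X → ℝ) (Z : Set X),
  (∀ j, ∀ q ∈ (e j).source, pr (e j q) = π q) →
  (∀ j l, ∀ y ∈ (e j).target, (e j).symm y ∈ (e l).source →
    AnalyticAt ℂ (fun x => e l ((e j).symm x)) y) →
  (∀ j, ContDiff ℝ ∞ (w j) ∧ HasCompactSupport (w j) ∧ tsupport (w j) ⊆ (e j).target) →
  (∀ p, π p = b → ∑ j, (if p ∈ (e j).source then w j (e j p) else 0) = 1) →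
  Z.Finite →
  (∀ j t, sn b t ∈ (e j).target → ContDiffAt ℝ ∞ (v j) (sn b t) ∧ AnalyticAt ℂ (f j) t ∧
    f j t ≠ 0 ∧ ((e j).symm (sn b t) ∉ Z → R ((e j).symm (sn b t)) =
      ‖f j t‖ ^ 2 * ((if δ j then ‖t‖ ^ 2 else 1) * Real.exp (v j (sn b t))))) →
  ∑ j, ∫ t : ℂ, w j (sn b t) * (cHess (v j) (sn b t) (Fin.last D) (Fin.last D) / Real.pi) =
    -∑ j, (if δ j then (w j (sl b) : ℂ) else 0)

end Vale.Agent.P269CF
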