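import Vale.Agent.P269CF.Fub
import Vale.Agent.P269CB.Main
import Vale.Agent.P269CZ.Main
import Vale.Agent.P269CI.Yb
import Vale.Agent.P269KX.Psys
import Vale.Agent.P269CN.Fl
import Vale.Agent.P269C.T2

/-!
P269, block C, row FUB without hypotheses.
-/

namespace Vale.Agent.P269CF

open Vale.Agent.P269C Vale.Agent.P269CD

theorem fub_row : FUB :=
  fub P269CB.gdc (P269CZ.yg P269C.t2) (P269CI.bas P269CK.k1 nul P269CG.tau_row chn P269CB.gdc)
    P269KX.psys (P269CI.yb P269CK.k1 P269CV.k2 chn P269C.t2 (P269CZ.yf P269C.t2)) P269CN.fl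

end Vale.Agent.P269CF
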