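import Mathlib

/-!
P269, block C, fibre integration: integrals of densities given in parametrisations do not depend on
the parametrisations.
-/

set_option linter.unusedSectionVars false

noncomputable section

namespace Vale.Agent.P269CF

open Set Filter MeasureTheory
open scoped Topology

variable {E : Type} [NormedAddCommGroup E] [NormedSpace ℝ E] {X : Type}

/-- Two parametrisations with densities which correspond to each other. -/
structure Tr (g g' : E → X) (Ω Ω' : Set E) (a a' : E → ℂ) : Prop where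
  op : IsOpen Ω
  op' : IsOpen Ω'
  inj : InjOn g Ω
  inj' : InjOn g' Ω'
  loc : ∀ y ∈ Ω, ∀ y' ∈ Ω', g y = g' y' → ∃ T : E → E, DifferentiableAt ℝ T y ∧
    (∀ᶠ x in 𝓝 y, T x ∈ Ω' ∧ g' (T x) = g x) ∧
      a y = (|(fderiv ℝ T y).det| : ℝ) * a' y'

variable [FiniteDimensional ℝ E] [MeasurableSpace E] [BorelSpace E] (μ : Measure E)
  [μ.IsAddHaarMeasure]

theorem Tr.chg {g g' : E → X} {Ω Ω' : Set E} {a a' : E → ℂ} (h : Tr g g' Ω Ω' a a') (w : X → ℂ)
    (hw : ∀ p, w p ≠ 0 → p ∈ g '' Ω ∧ p ∈ g' '' Ω') :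
    (∫ y in Ω, w (g y) * a y ∂μ = ∫ y in Ω', w (g' y) * a' y ∂μ) ∧
      (IntegrableOn (fun y => w (g y) * a y) Ω μ →
        IntegrableOn (fun y => w (g' y) * a' y) Ω' μ) := by
  have : Nonempty E := ⟨0⟩
  set S : Set E := {y | y ∈ Ω ∧ g y ∈ g' '' Ω'} with hS
  set T : E → E := fun y => Function.invFunOn g' Ω' (g y) with hT
  have hT1 : ∀ y ∈ S, T y ∈ Ω' ∧ g' (T y) = g y := fun y hy =>
    ⟨Function.invFunOn_mem hy.2, Function.invFunOn_eq hy.2⟩
  have hloc : ∀ y ∈ S, S ∈ 𝓝 y ∧ DifferentiableAt ℝ T y ∧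
      a y = (|(fderiv ℝ T y).det| : ℝ) * a' (T y) := by
    intro y hy
    obtain ⟨T0, h1, h2, h3⟩ := h.loc y hy.1 (T y) (hT1 y hy).1 (hT1 y hy).2.symm
    have h4 : S ∈ 𝓝 y := by
      filter_upwards [h2, h.op.mem_nhds hy.1] with x hx hx'
      exact ⟨hx', T0 x, hx.1, hx.2⟩
    have h5 : T =ᶠ[𝓝 y] T0 := by
      filter_upwards [h2, h4] with x hx hx'
      exact h.inj' (hT1 x hx').1 hx.1 ((hT1 x hx').2.trans hx.2.symm)
    exact ⟨h4, h1.congr_of_eventuallyEq h5, by rw [h5.fderiv_eq]; exact h3⟩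
  have hSo : IsOpen S := isOpen_iff_mem_nhds.2 fun y hy => (hloc y hy).1
  have hd : ∀ y ∈ S, HasFDerivWithinAt T (fderiv ℝ T y) S y := fun y hy =>
    (hloc y hy).2.1.hasFDerivAt.hasFDerivWithinAt
  have hi : InjOn T S := fun y hy y' hy' e =>
    h.inj hy.1 hy'.1 (by rw [← (hT1 y hy).2, ← (hT1 y' hy').2, e])
  have hsub : T '' S ⊆ Ω' := by
    rintro _ ⟨y, hy, rfl⟩
    exact (hT1 y hy).1
  have hz : ∀ y ∈ Ω \ S, w (g y) * a y = 0 := by
    intro y hy
    have : w (g y) = 0 := by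
      by_contra h0
      exact hy.2 ⟨hy.1, (hw _ h0).2⟩
    rw [this, zero_mul]
  have hz' : ∀ y ∈ Ω' \ T '' S, w (g' y) * a' y = 0 := by
    intro y hy
    have : w (g' y) = 0 := by
      by_contra h0
      obtain ⟨x, hx, e⟩ := (hw _ h0).1
      have hxS : x ∈ S := ⟨hx, y, hy.1, e.symm⟩
      exact hy.2 ⟨x, hxS, h.inj' (hT1 x hxS).1 hy.1 ((hT1 x hxS).2.trans e)⟩
    rw [this, zero_mul]
  have he : ∀ y ∈ S, |(fderiv ℝ T y).det| • (w (g' (T y)) * a' (T y)) = w (g y) * a y := by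
    intro y hy
    rw [(hT1 y hy).2, (hloc y hy).2.2, Complex.real_smul]
    ring
  refine ⟨?_, fun hI => ?_⟩
  · rw [setIntegral_eq_of_subset_of_forall_sdiff_eq_zero h.op.measurableSet (fun y hy => hy.1) hz,
      setIntegral_eq_of_subset_of_forall_sdiff_eq_zero h.op'.measurableSet hsub hz',
      integral_image_eq_integral_abs_det_fderiv_smul μ hSo.measurableSet hd hi]
    exact (setIntegral_congr_fun hSo.measurableSet he).symm
  · refine IntegrableOn.of_forall_sdiff_eq_zero ?_ h.op'.measurableSet hz'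
    rw [integrableOn_image_iff_integrableOn_abs_det_fderiv_smul μ hSo.measurableSet hd hi]
    exact (hI.mono_set fun y hy => hy.1).congr_fun (fun y hy => (he y hy).symm) hSo.measurableSet

/-- **Independence of the parametrisations.** -/
theorem ind {J K : Type} [Fintype J] [Fintype K] {g : J → E → X} {g' : K → E → X}
    {Ω : J → Set E} {Ω' : K → Set E} {a : J → E → ℂ} {a' : K → E → ℂ}
    (h : ∀ j k, Tr (g j) (g' k) (Ω j) (Ω' k) (a j) (a' k)) (w : J → X → ℂ) (w' : K → X → ℂ)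
    (hw : ∀ j p, w j p ≠ 0 → p ∈ g j '' Ω j) (hw' : ∀ k p, w' k p ≠ 0 → p ∈ g' k '' Ω' k)
    (hs : ∀ j p, w j p ≠ 0 → ∑ k, w' k p = 1)
    (hI : ∀ j, IntegrableOn (fun y => w j (g j y) * a j y) (Ω j) μ)
    (hb : ∀ k p, ‖w' k p‖ ≤ 1)
    (hm : ∀ j k, AEStronglyMeasurable (fun y => w' k (g j y)) (μ.restrict (Ω j))) :
    (∑ j, ∫ y in Ω j, w j (g j y) * a j y ∂μ =
      ∑ k, ∫ y in Ω' k, (∑ j, w j (g' k y)) * w' k (g' k y) * a' k y ∂μ) ∧
    ∀ k, IntegrableOn (fun y => (∑ j, w j (g' k y)) * w' k (g' k y) * a' k y) (Ω' k) μ := by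
  have h1 : ∀ j k, IntegrableOn (fun y => (w j (g j y) * w' k (g j y)) * a j y) (Ω j) μ := by
    intro j k
    refine ((hI j).bdd_mul (hm j k) (c := 1) (ae_of_all _ fun y => hb k _)).congr
      (ae_of_all _ fun y => ?_)
    ring
  have h2 := fun j k => (h j k).chg μ (fun p => w j p * w' k p) fun p hp =>
    ⟨hw j p (left_ne_zero_of_mul hp), hw' k p (right_ne_zero_of_mul hp)⟩
  have h3 : ∀ k y, (∑ j, w j (g' k y)) * w' k (g' k y) * a' k y =
      ∑ j, (w j (g' k y) * w' k (g' k y)) * a' k y := by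
    intro k y
    rw [Finset.sum_mul, Finset.sum_mul]
  refine ⟨?_, fun k => ?_⟩
  · have h4 : ∀ j, ∫ y in Ω j, w j (g j y) * a j y ∂μ =
        ∑ k, ∫ y in Ω j, (w j (g j y) * w' k (g j y)) * a j y ∂μ := by
      intro j
      rw [← integral_finsetSum _ fun k _ => h1 j k]
      refine integral_congr_ae (ae_of_all _ fun y => ?_)
      by_cases h0 : w j (g j y) = 0
      · simp [h0]
      · simp only [← Finset.sum_mul, ← Finset.mul_sum, hs j _ h0, mul_one]
    simp only [h4, h3]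
    rw [Finset.sum_comm]
    refine Finset.sum_congr rfl fun k _ => ?_
    rw [integral_finsetSum _ fun j _ => (h2 j k).2 (h1 j k)]
    exact Finset.sum_congr rfl fun j _ => (h2 j k).1
  · simp only [h3]
    exact integrable_finsetSum _ fun j _ => (h2 j k).2 (h1 j k)

end Vale.Agent.P269CF
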