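import Vale.Agent.P269CF.Deg
import Vale.Agent.P269CF.Ind
import Vale.Agent.P269CL.Pli
import Vale.Agent.P269CQ.Main
import Vale.Agent.P269CS.Sys
import Vale.Agent.P269CD.Cnt
import Vale.Agent.P269C.Chn

/-!
P269, block C, row FUB: integration along the fibres near a smooth fibre.
-/

noncomputable section

namespace Vale.Agent.P269CF

open Set Filter MeasureTheory Vale.Agent.P273.H183 Vale.Agent.P272.K Vale.Agent.P269C
open Vale.Agent.P269CD
open scoped Topology ContDiff Classical

variable {L : Type} {D : ℕ} {C : Fam L D}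

theorem fub_sn {F : Cm (D + 1) → ℂ} (hF : Integrable F) :
    ∫ y, F y = ∫ b, ∫ t, F (sn b t) ∧ Integrable fun b => ∫ t, F (sn b t) := by
  have h := (volume_preserving_piFinSuccAbove (fun _ : Fin (D + 1) => ℂ) (Fin.last D)).symm
  have e : ∀ p : ℂ × Cm D,
      (MeasurableEquiv.piFinSuccAbove (fun _ : Fin (D + 1) => ℂ) (Fin.last D)).symm p =
        sn p.2 p.1 := fun p => by
    simp only [MeasurableEquiv.piFinSuccAbove_symm_apply, Fin.insertNthEquiv, Equiv.coe_fn_mk,
      Fin.insertNth_last', sn]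
  have h1 : Integrable fun p : ℂ × Cm D => F (sn p.2 p.1) := by
    simpa only [Function.comp_def, e] using (h.integrable_comp_emb
      (MeasurableEquiv.measurableEmbedding _)).2 hF
  refine ⟨?_, h1.integral_prod_right⟩
  rw [← h.integral_comp' (g := F)]
  simp only [e]
  exact integral_prod_symm _ h1

/-- A local vanishing principle for additive functions of sets. -/
theorem glob {m : Set (Cm D) → ℂ} (hm : ∀ s : ℕ → Set (Cm D), (∀ i, MeasurableSet (s i)) →
    Pairwise (Function.onFun Disjoint s) → HasSum (fun i => m (s i)) (m (⋃ i, s i)))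
    (h0 : m ∅ = 0) {O : Set (Cm D)} (hO : IsOpen O)
    (h : ∀ b ∈ O, ∃ V ∈ 𝓝 b, ∀ T ⊆ V, MeasurableSet T → m T = 0) : m O = 0 := by
  choose! V hV h1 using h
  obtain ⟨t, ht, h2, h3⟩ := TopologicalSpace.countable_cover_nhdsWithin (s := O)
    (f := fun b => interior (V b) ∩ O) fun b hb =>
      inter_mem (mem_nhdsWithin_of_mem_nhds (interior_mem_nhds.2 (hV b hb))) self_mem_nhdsWithin
  rcases t.eq_empty_or_nonempty with rfl | hne
  · rw [subset_empty_iff.1 (by simpa using h3 : O ⊆ ∅), h0]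
  obtain ⟨f, rfl⟩ := h2.exists_eq_range hne
  have h4 := hm (disjointed fun n => interior (V (f n)) ∩ O)
    (MeasurableSet.disjointed fun n => (isOpen_interior.inter hO).measurableSet)
    (disjoint_disjointed _)
  have h5 : ⋃ n, interior (V (f n)) ∩ O = O :=
    (iUnion_subset fun _ => inter_subset_right).antisymm (by simpa only [biUnion_range] using h3)
  rw [iUnion_disjointed, h5] at h4
  refine h4.unique ?_
  have h6 : (fun n => m (disjointed (fun n => interior (V (f n)) ∩ O) n)) = fun _ => 0 :=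
    funext fun n => h1 _ (ht ⟨n, rfl⟩) _
      ((disjointed_subset _ n).trans (inter_subset_left.trans interior_subset))
      (MeasurableSet.disjointed (fun n => (isOpen_interior.inter hO).measurableSet) n)
  rw [h6]
  exact hasSum_zero

theorem meas_p (hC : C.IsStable) (c : Ch C) {T : Set (Cm D)} (hT : MeasurableSet T) :
    MeasurableSet (c.e.target ∩ c.p ⁻¹' T) := by
  have h1 : Measurable (c.e.target.restrict c.p) := (c.p_cont hC).restrict.measurable
  have h2 := (MeasurableEmbedding.subtype_coe c.e.open_target.measurableSet).measurableSet_image'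
    (h1 hT)
  have h3 : ((↑) : c.e.target → _) '' (c.e.target.restrict c.p ⁻¹' T) = c.e.target ∩ c.p ⁻¹' T := by
    ext y
    exact ⟨fun ⟨x, hx, e⟩ => e ▸ ⟨x.2, hx⟩, fun hy => ⟨⟨y, hy.1⟩, hy.2, rfl⟩⟩
  rwa [h3] at h2

/-- Natural densities on all charts of the total space. -/
structure Nat (C : Fam L D) (γ : Ch C → Cm (D + 1) → Po (D + 1)) : Prop where
  gd : ∀ c, ∀ y ∈ c.e.target, Gd y (γ c)
  nat : ∀ c c', ∀ y ∈ c.e.target, c.e.symm y ∈ c'.e.source →
    γ c y = pb (jac (c.tr c' id) y) (γ c' (c.tr c' id y))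

theorem Nat.tr {γ : Ch C → Cm (D + 1) → Po (D + 1)} (h : Nat C γ) (c c' : Ch C) :
    Tr c.e.symm c'.e.symm c.e.target c'.e.target (fun y => tau (γ c y)) fun y => tau (γ c' y) := by
  refine ⟨c.e.open_target, c'.e.open_target, c.e.symm.injOn, c'.e.symm.injOn,
    fun y hy y' hy' e => ?_⟩
  have h1 : c.e.symm y ∈ c'.e.source := e ▸ c'.e.map_target hy'
  have h2 : AnalyticAt ℂ (c.tr c' id) y := P269CS.an_tr c.hol c'.hol hy h1
  have h3 : c.tr c' id y = y' := by
    show c'.e (c.e.symm y) = y'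
    rw [e, c'.e.right_inv hy']
  refine ⟨c.tr c' id, h2.differentiableAt.restrictScalars ℝ, ?_, ?_⟩
  · filter_upwards [(c.e.continuousAt_symm hy).eventually (c'.e.open_source.mem_nhds h1)]
      with x hx
    exact ⟨c'.e.map_source hx, c'.e.left_inv hx⟩
  · show tau (γ c y) = _
    rw [h.nat c c' y hy h1, P269CG.tau_row.det, P269CQ.abs_det h2, h3]

theorem Nat.int (gdc : GDC) {γ : Ch C → Cm (D + 1) → Po (D + 1)} (h : Nat C γ) {ρ : Cm D → ℝ}
    (S : Sys C ρ) (j : Fin S.k) : Integrable fun y => (S.w j y : ℂ) * tau (γ (S.c j) y) :=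
  P269CL.integrable_w (S.c j).e.open_target (S.sm j).1.continuous (S.sm j).2.1 (S.sm j).2.2
    (P269CL.cont_tau_gd gdc (h.gd _))

/-- Change of the system of charts, over a measurable part of the base. -/
theorem Nat.chg (gdc : GDC) (hC : C.IsStable) {γ : Ch C → Cm (D + 1) → Po (D + 1)} (h : Nat C γ)
    {ρ χ : Cm D → ℝ} (S : Sys C ρ) (S' : Sys C χ) (hb : ∀ j y, |S'.w j y| ≤ 1) {T : Set (Cm D)}
    (hT : MeasurableSet T) (h1 : ∀ b ∈ T, χ b = 1) :
    (∑ j, ∫ y in (S.c j).e.target ∩ (S.c j).p ⁻¹' T, (S.w j y : ℂ) * tau (γ (S.c j) y) =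
      ∑ k, ∫ y in (S'.c k).e.target, T.indicator (fun b => (ρ b : ℂ)) ((S'.c k).p y) * S'.w k y *
        tau (γ (S'.c k) y)) ∧
    ∀ k, IntegrableOn (fun y => T.indicator (fun b => (ρ b : ℂ)) ((S'.c k).p y) * S'.w k y *
        tau (γ (S'.c k) y)) (S'.c k).e.target := by
  have e1 : ∀ j, EqOn (fun y => (if C.π ((S.c j).e.symm y) ∈ T then
      (P269CS.ext0 (S.c j).e (S.w j) ((S.c j).e.symm y) : ℂ) else 0) * tau (γ (S.c j) y))
      (((S.c j).e.target ∩ (S.c j).p ⁻¹' T).indicator fun y => (S.w j y : ℂ) * tau (γ (S.c j) y))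
      (S.c j).e.target := by
    intro j y hy
    by_cases h2 : C.π ((S.c j).e.symm y) ∈ T
    · rw [indicator_of_mem (show y ∈ _ ∩ _ from ⟨hy, h2⟩)]
      simp only [if_pos h2, P269CS.ext0, if_pos ((S.c j).e.map_target hy), (S.c j).e.right_inv hy]
    · rw [indicator_of_notMem fun h3 => h2 h3.2]
      simp only [if_neg h2, zero_mul]
  have e2 : ∀ k, EqOn (fun y => (∑ j, if C.π ((S'.c k).e.symm y) ∈ T then
      (P269CS.ext0 (S.c j).e (S.w j) ((S'.c k).e.symm y) : ℂ) else 0) *
        (P269CS.ext0 (S'.c k).e (S'.w k) ((S'.c k).e.symm y) : ℂ) * tau (γ (S'.c k) y))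
      (fun y => T.indicator (fun b => (ρ b : ℂ)) ((S'.c k).p y) * S'.w k y * tau (γ (S'.c k) y))
      (S'.c k).e.target := by
    intro k y hy
    have h2 : P269CS.ext0 (S'.c k).e (S'.w k) ((S'.c k).e.symm y) = S'.w k y := by
      simp only [P269CS.ext0, if_pos ((S'.c k).e.map_target hy), (S'.c k).e.right_inv hy]
    simp only [h2]
    refine congrArg (fun s => s * (S'.w k y : ℂ) * tau (γ (S'.c k) y)) ?_
    by_cases h3 : C.π ((S'.c k).e.symm y) ∈ T
    · simp only [if_pos h3]
      rw [indicator_of_mem (show (S'.c k).p y ∈ T from h3), ← Complex.ofReal_sum]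
      exact congrArg _ (S.one _)
    · simp only [if_neg h3, Finset.sum_const_zero]
      rw [indicator_of_notMem (show (S'.c k).p y ∉ T from h3)]
  have e3 : ∀ {σ : Cm D → ℝ} (R : Sys C σ) j p, P269CS.ext0 (R.c j).e (R.w j) p ≠ 0 →
      p ∈ (R.c j).e.symm '' (R.c j).e.target := fun R j p hp => by
    have h2 : p ∈ (R.c j).e.source := by_contra fun h3 => hp (if_neg h3)
    exact ⟨_, (R.c j).e.map_source h2, (R.c j).e.left_inv h2⟩
  obtain ⟨h2, h3⟩ := ind volume (fun j k => h.tr (S.c j) (S'.c k))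
    (fun j q => if C.π q ∈ T then (P269CS.ext0 (S.c j).e (S.w j) q : ℂ) else 0)
    (fun k q => (P269CS.ext0 (S'.c k).e (S'.w k) q : ℂ))
    (fun j p hp => e3 S j p fun h4 => hp (by simp only [h4, Complex.ofReal_zero, ite_self]))
    (fun k p hp => e3 S' k p fun h4 => hp (by simp only [h4, Complex.ofReal_zero]))
    (fun j p hp => by
      have h4 : C.π p ∈ T := by_contra fun h5 => hp (if_neg h5)
      rw [← Complex.ofReal_sum, ← Complex.ofReal_one, ← h1 _ h4]
      exact congrArg _ (S'.one p))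
    (fun j => (((h.int gdc S j).indicator (meas_p hC _ hT)).integrableOn).congr_fun (e1 j).symm
      (S.c j).e.open_target.measurableSet)
    (fun k p => by
      rw [Complex.norm_real, Real.norm_eq_abs, P269CS.ext0]
      split_ifs
      · exact hb _ _
      · simp)
    (fun j k => ContinuousOn.aestronglyMeasurable (fun y hy =>
      (Complex.continuous_ofReal.continuousAt.comp (P269CS.sm_ext0 hC (S.c j).hol (S'.c k).hol
        (S'.sm k).1 (S'.sm k).2.1 (S'.sm k).2.2 hy).continuousAt).continuousWithinAt)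
      (S.c j).e.open_target.measurableSet)
  refine ⟨?_, fun k => (h3 k).congr_fun (e2 k) (S'.c k).e.open_target.measurableSet⟩
  refine Eq.trans (Finset.sum_congr rfl fun j _ => ?_) (h2.trans
    (Finset.sum_congr rfl fun k _ => setIntegral_congr_fun (S'.c k).e.open_target.measurableSet
      (e2 k)))
  rw [setIntegral_congr_fun (S.c j).e.open_target.measurableSet (e1 j),
    setIntegral_indicator (meas_p hC _ hT), ← inter_assoc, inter_self]

end Vale.Agent.P269CF
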